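import Mathlib
import Vale.Agent.Lib.P262.Gadget3Data

namespace Vale.Agent.Results.P262.A_SigmaLowerDimGe3

/-- If every finite sequence in the Euclidean unit ball of `ℝ^d`, `d ≥ 3`, admits signs for which
all initial signed sums have norm at most `C`, then `C ≥ √(d + 139/100)`;
i.e. `σ(d) ≥ √(d + 1.39)` for all `d ≥ 3`. -/
theorem result (d : ℕ) (hd : 3 ≤ d) (C : ℝ)
    (hC : ∀ (N : ℕ) (v : Fin N → EuclideanSpace ℝ (Fin d)), (∀ i, ‖v i‖ ≤ 1) →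
      ∃ ε : Fin N → ℝ, (∀ i, ε i = 1 ∨ ε i = -1) ∧
        ∀ k : ℕ, k ≤ N →
          ‖∑ i ∈ Finset.univ.filter (fun i : Fin N => (i : ℕ) < k), ε i • v i‖ ≤ C) :
    Real.sqrt (d + 139 / 100) ≤ C :=
  Vale.Agent.Lib.P262.sigma_lower3 d hd C hC

end Vale.Agent.Results.P262.A_SigmaLowerDimGe3
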