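import Mathlib
import Vale.Agent.Lib.P262.helper8.Steinitz

namespace Vale.Agent.Results.P262.B_MeanSquareSignsAndOrder

/-- Mean square forms of both parts of the problem, for vectors in the Euclidean unit ball.
First part (signs): for every nonnegative weighting `ν` of the prefix lengths there are signs
with `∑ t, ν t * ‖P t‖ ^ 2 ≤ d * ∑ t, ν t`, where `P t` is the signed sum of the first `t + 1`
vectors. Second part (orderings): a zero-sum family can be ordered so that the squared norms of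
its `N` initial sums add up to at most `d * N`. Third part: the constant `d` of the first part
cannot be lowered. -/
theorem result :
    (∀ (d N : ℕ) (v : Fin N → EuclideanSpace ℝ (Fin d)), (∀ i, ‖v i‖ ≤ 1) →
      ∀ ν : Fin N → ℝ, (∀ t, 0 ≤ ν t) →
        ∃ ε : Fin N → ℝ, (∀ i, ε i = 1 ∨ ε i = -1) ∧
          ∑ t, ν t * ‖∑ i ∈ Finset.univ.filter (fun i => i ≤ t), ε i • v i‖ ^ 2
            ≤ d * ∑ t, ν t) ∧
    (∀ (d N : ℕ) (v : Fin N → EuclideanSpace ℝ (Fin d)), (∀ i, ‖v i‖ ≤ 1) →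
      ∑ i, v i = 0 →
        ∃ π : Equiv.Perm (Fin N),
          ∑ t, ‖∑ i ∈ Finset.univ.filter (fun i => i ≤ t), v (π i)‖ ^ 2 ≤ d * N) ∧
    (∀ d : ℕ, 1 ≤ d →
      ∃ (v : Fin d → EuclideanSpace ℝ (Fin d)) (ν : Fin d → ℝ),
        (∀ i, ‖v i‖ ≤ 1) ∧ (∀ t, 0 ≤ ν t) ∧ ∑ t, ν t = 1 ∧
        ∀ ε : Fin d → ℝ, (∀ i, ε i = 1 ∨ ε i = -1) →
          (d : ℝ) ≤
            ∑ t, ν t * ‖∑ i ∈ Finset.univ.filter (fun i => i ≤ t), ε i • v i‖ ^ 2) :=
  ⟨fun d N v hv ν hν => Vale.Agent.Lib.P262.helper8.averaged_prefix d N v hv ν hν,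
    fun d N v hv hsum => Vale.Agent.Lib.P262.helper8.steinitz_mean_square d N v hv hsum,
    fun d hd => Vale.Agent.Lib.P262.helper8.averaged_prefix_sharp d hd⟩

end Vale.Agent.Results.P262.B_MeanSquareSignsAndOrder
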