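import Mathlib
import Vale.Agent.Lib.P262.helper8.Counting

namespace Vale.Agent.Results.P262.C_AveragedPrefix

/-- Signed prefix sums in the Euclidean unit ball, in mean square over the prefix lengths.
First part: for every nonnegative weighting `ν` of the prefix lengths there are signs with
`∑ t, ν t * ‖P t‖ ^ 2 ≤ d * ∑ t, ν t`, where `P t` is the signed sum of the first `t + 1`
vectors. Second part: one choice of signs has `∑ t, ‖P t‖ ^ 2 ≤ d * N` and, for every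
`lam > 0`, at most `N / lam ^ 2` prefix sums of norm above `lam * √d`. Third part: the constant
`d` of the first part cannot be lowered. -/
theorem result :
    (∀ (d N : ℕ) (v : Fin N → EuclideanSpace ℝ (Fin d)), (∀ i, ‖v i‖ ≤ 1) →
      ∀ ν : Fin N → ℝ, (∀ t, 0 ≤ ν t) →
        ∃ ε : Fin N → ℝ, (∀ i, ε i = 1 ∨ ε i = -1) ∧
          ∑ t, ν t * ‖∑ i ∈ Finset.univ.filter (fun i => i ≤ t), ε i • v i‖ ^ 2
            ≤ d * ∑ t, ν t) ∧
    (∀ (d N : ℕ) (v : Fin N → EuclideanSpace ℝ (Fin d)), (∀ i, ‖v i‖ ≤ 1) →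
      ∃ ε : Fin N → ℝ, (∀ i, ε i = 1 ∨ ε i = -1) ∧
        ∑ t, ‖∑ i ∈ Finset.univ.filter (fun i => i ≤ t), ε i • v i‖ ^ 2 ≤ d * N ∧
        ∀ lam : ℝ, 0 < lam →
          ((Finset.univ.filter (fun t : Fin N =>
            lam * Real.sqrt d <
              ‖∑ i ∈ Finset.univ.filter (fun i => i ≤ t), ε i • v i‖)).card : ℝ)
            * lam ^ 2 ≤ N) ∧
    (∀ d : ℕ, 1 ≤ d →
      ∃ (v : Fin d → EuclideanSpace ℝ (Fin d)) (ν : Fin d → ℝ),
        (∀ i, ‖v i‖ ≤ 1) ∧ (∀ t, 0 ≤ ν t) ∧ ∑ t, ν t = 1 ∧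
        ∀ ε : Fin d → ℝ, (∀ i, ε i = 1 ∨ ε i = -1) →
          (d : ℝ) ≤
            ∑ t, ν t * ‖∑ i ∈ Finset.univ.filter (fun i => i ≤ t), ε i • v i‖ ^ 2) :=
  ⟨fun d N v hv ν hν => Vale.Agent.Lib.P262.helper8.averaged_prefix d N v hv ν hν,
    fun d N v hv => Vale.Agent.Lib.P262.helper8.counting_prefix d N v hv,
    fun d hd => Vale.Agent.Lib.P262.helper8.averaged_prefix_sharp d hd⟩

end Vale.Agent.Results.P262.C_AveragedPrefix
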