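import Mathlib
import Vale.Agent.Lib.P262.helper8.Random
import Vale.Agent.Lib.P262.helper8.SteinitzLower

namespace Vale.Agent.Results.P262.E_MeanSquareRandomAndOrder

/-- Mean square forms of both parts of the problem, for vectors in the Euclidean unit ball.
A sign pattern is a map `s : Fin N → Bool` (true is plus, false is minus), and `P s t` denotes
the signed sum of the first `t + 1` vectors.
First part: there is a probability vector `μ` on the sign patterns such that for every prefix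
length `t` and every direction `θ` the `μ`-mean of `(inner θ (P s t)) ^ 2` is at most `‖θ‖ ^ 2`,
and hence the `μ`-mean of `‖P s t‖ ^ 2` is at most `d`, for all `t` at once.
Second part: the constant `d` cannot be lowered.
Third part: a zero-sum family can be ordered so that the squared norms of its `N` initial sums
add up to at most `d * N`.
Fourth part: for the basis vectors followed by `d` copies of minus their mean, every ordering
has squared norms of initial sums adding up to at least `(d ^ 2 - 1) / 6`. -/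
theorem result :
    (∀ (d N : ℕ) (v : Fin N → EuclideanSpace ℝ (Fin d)), (∀ i, ‖v i‖ ≤ 1) →
      ∃ μ : (Fin N → Bool) → ℝ, (∀ s, 0 ≤ μ s) ∧ ∑ s, μ s = 1 ∧
        (∀ (t : Fin N) (θ : EuclideanSpace ℝ (Fin d)),
          ∑ s, μ s * (inner ℝ θ (∑ i ∈ Finset.univ.filter (fun i => i ≤ t),
            (if s i then (1 : ℝ) else -1) • v i)) ^ 2 ≤ ‖θ‖ ^ 2) ∧
        (∀ t : Fin N,
          ∑ s, μ s * ‖∑ i ∈ Finset.univ.filter (fun i => i ≤ t),
            (if s i then (1 : ℝ) else -1) • v i‖ ^ 2 ≤ d)) ∧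
    (∀ d : ℕ, 1 ≤ d →
      ∃ (v : Fin d → EuclideanSpace ℝ (Fin d)) (ν : Fin d → ℝ),
        (∀ i, ‖v i‖ ≤ 1) ∧ (∀ t, 0 ≤ ν t) ∧ ∑ t, ν t = 1 ∧
        ∀ ε : Fin d → ℝ, (∀ i, ε i = 1 ∨ ε i = -1) →
          (d : ℝ) ≤
            ∑ t, ν t * ‖∑ i ∈ Finset.univ.filter (fun i => i ≤ t), ε i • v i‖ ^ 2) ∧
    (∀ (d N : ℕ) (v : Fin N → EuclideanSpace ℝ (Fin d)), (∀ i, ‖v i‖ ≤ 1) →
      ∑ i, v i = 0 →
        ∃ π : Equiv.Perm (Fin N),
          ∑ t, ‖∑ i ∈ Finset.univ.filter (fun i => i ≤ t), v (π i)‖ ^ 2 ≤ d * N) ∧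
    (∀ d : ℕ, 1 ≤ d →
      ∃ v : Fin (d + d) → EuclideanSpace ℝ (Fin d), (∀ i, ‖v i‖ ≤ 1) ∧ ∑ i, v i = 0 ∧
        ∀ π : Equiv.Perm (Fin (d + d)),
          ((d : ℝ) ^ 2 - 1) / 6 ≤
            ∑ t, ‖∑ i ∈ Finset.univ.filter (fun i => i ≤ t), v (π i)‖ ^ 2) :=
  ⟨fun d N v hv => Vale.Agent.Lib.P262.helper8.random_prefix_norm d N v hv,
    fun d hd => Vale.Agent.Lib.P262.helper8.averaged_prefix_sharp d hd,
    fun d N v hv hsum => Vale.Agent.Lib.P262.helper8.steinitz_mean_square d N v hv hsum,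
    fun d hd => Vale.Agent.Lib.P262.helper8.steinitz_mean_square_lower d hd⟩

end Vale.Agent.Results.P262.E_MeanSquareRandomAndOrder
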